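import Vale.Agent.P247I47.Sm

/-! # The exterior derivative on vector fields is the exterior derivative in charts -/

open scoped Manifold ContDiff Bundle Topology
open Set VectorField
open Vale.Agent.P247.SCY

namespace Vale.Agent.P247U

variable {E : Type} [NormedAddCommGroup E] [NormedSpace ℝ E]
variable {X : Type} [TopologicalSpace X] [ChartedSpace E X] [IsManifold 𝓘(ℝ, E) ∞ X] {k : ℕ}

/-- The vector field `V` read in the preferred chart at `x₀`. -/
noncomputable def pb (x₀ : X) (V : Vec E X) : E → E :=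
  mpullbackWithin 𝓘(ℝ, E) 𝓘(ℝ, E) (extChartAt 𝓘(ℝ, E) x₀).symm V (range 𝓘(ℝ, E))

omit [IsManifold 𝓘(ℝ, E) ∞ X] in
theorem mfderiv_chart_symm (x₀ : X) (y : E) :
    mfderiv 𝓘(ℝ, E) 𝓘(ℝ, E) (chartAt E x₀).symm y =
      mfderivWithin 𝓘(ℝ, E) 𝓘(ℝ, E) (extChartAt 𝓘(ℝ, E) x₀).symm (range 𝓘(ℝ, E)) y := by
  simp only [modelWithCornersSelf_coe, range_id, mfderivWithin_univ]
  rfl

theorem mfderiv_pb (x₀ : X) (V : Vec E X) {y : E} (hy : y ∈ (chartAt E x₀).target) :
    mfderiv 𝓘(ℝ, E) 𝓘(ℝ, E) (chartAt E x₀).symm y (pb (E := E) x₀ V y) =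
      V ((chartAt E x₀).symm y) := by
  have h1 := isInvertible_mfderivWithin_extChartAt_symm (I := 𝓘(ℝ, E)) (x := x₀) (y := y)
    (by simpa using hy)
  rw [mfderiv_chart_symm]
  exact h1.self_apply_inverse _

theorem mfderiv_symm_self (x₀ : X) (v : E) :
    (mfderiv 𝓘(ℝ, E) 𝓘(ℝ, E) (chartAt E x₀).symm (chartAt E x₀ x₀) v : E) = v := by
  rw [← symmL_eq (mem_chart_source E x₀),
    TangentBundle.symmL_trivializationAt_eq_core (mem_chart_source E x₀)]
  exact (tangentBundleCore 𝓘(ℝ, E) X).coordChange_self (achart E x₀) x₀ (mem_chart_source E x₀) v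

theorem pb_self (x₀ : X) (V : Vec E X) : pb x₀ V (chartAt E x₀ x₀) = V x₀ := by
  have h1 := mfderiv_pb x₀ V (mem_chart_target E x₀)
  have h2 : ∀ (x' : X) (_ : x' = x₀), (V x' : E) = V x₀ := by
    intro x' h; subst h; rfl
  exact (mfderiv_symm_self x₀ _).symm.trans
    (h1.trans (h2 _ ((chartAt E x₀).left_inv (mem_chart_source E x₀))))

theorem loc_pb (α : GS.Form E X k) (x₀ : X) (V : Fin k → Vec E X) {y : E}
    (hy : y ∈ (chartAt E x₀).target) :
    GS.loc (chartAt E x₀) α y (fun i => pb x₀ (V i) y) =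
      α ((chartAt E x₀).symm y) fun i => V i ((chartAt E x₀).symm y) :=
  congrArg (α ((chartAt E x₀).symm y)) (funext fun i => mfderiv_pb x₀ (V i) hy)

theorem loc_self (α : GS.Form E X k) (x₀ : X) (v : Fin k → E) :
    GS.loc (chartAt E x₀) α (chartAt E x₀ x₀) v = α x₀ v := by
  have h2 : ∀ (x' : X) (_ : x' = x₀) (u : Fin k → E), α x' u = α x₀ u := by
    intro x' h u; subst h; rfl
  refine Eq.trans ?_ (h2 _ ((chartAt E x₀).left_inv (mem_chart_source E x₀)) v)
  exact congrArg (α _) (funext fun i => mfderiv_symm_self x₀ (v i))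

theorem differentiableAt_pb [CompleteSpace E] (x₀ : X) (V : Vec E X) :
    DifferentiableAt ℝ (pb x₀ V) (chartAt E x₀ x₀) := by
  have h1 : MDifferentiableWithinAt 𝓘(ℝ, E) (𝓘(ℝ, E).prod 𝓘(ℝ, E))
      (fun x => (V x : TangentBundle 𝓘(ℝ, E) X)) univ x₀ :=
    ((V.contMDiff x₀).mdifferentiableAt (by simp)).mdifferentiableWithinAt
  have h2 := h1.differentiableWithinAt_mpullbackWithin_vectorField
  simp only [preimage_univ, univ_inter] at h2
  have h3 : range 𝓘(ℝ, E) = univ := by simp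
  have h4 : DifferentiableWithinAt ℝ (pb x₀ V) (range 𝓘(ℝ, E)) (chartAt E x₀ x₀) := h2
  rwa [h3, differentiableWithinAt_univ] at h4

theorem br_eq (x₀ : X) (U V : Vec E X) :
    (br U V x₀ : E) = lieBracket ℝ (pb x₀ U) (pb x₀ V) (chartAt E x₀ x₀) := by
  change (mlieBracket 𝓘(ℝ, E) U V x₀ : E) = _
  rw [← mlieBracketWithin_univ, mlieBracketWithin_apply, mfderiv_extChartAt_self]
  have h4 : (extChartAt 𝓘(ℝ, E) x₀).symm ⁻¹' univ ∩ range 𝓘(ℝ, E) = univ := by simp
  rw [h4]
  have h5 : (ContinuousLinearMap.id ℝ E).inverse = ContinuousLinearMap.id ℝ E :=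
    ContinuousLinearMap.inverse_id
  refine (DFunLike.congr_fun h5 _).trans ?_
  exact congrFun (lieBracketWithin_univ (𝕜 := ℝ) (V := pb x₀ U) (W := pb x₀ V)) _

theorem der_eq (x₀ : X) (U : Vec E X) {f : X → ℝ} {g : E → ℝ}
    (hg : DifferentiableAt ℝ g (chartAt E x₀ x₀))
    (h : ∀ y ∈ (chartAt E x₀).target, g y = f ((chartAt E x₀).symm y)) :
    der U f x₀ = fderiv ℝ g (chartAt E x₀ x₀) (pb x₀ U (chartAt E x₀ x₀)) := by
  have hs := mem_chart_source E x₀
  have h0 : f =ᶠ[𝓝 x₀] g ∘ extChartAt 𝓘(ℝ, E) x₀ := by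
    filter_upwards [(chartAt E x₀).open_source.mem_nhds hs] with x hx
    have := h _ ((chartAt E x₀).map_source hx)
    rw [(chartAt E x₀).left_inv hx] at this
    exact this.symm
  have h1 : MDifferentiableAt 𝓘(ℝ, E) 𝓘(ℝ, E) (extChartAt 𝓘(ℝ, E) x₀) x₀ :=
    mdifferentiableAt_extChartAt hs
  have h2 : MDifferentiableAt 𝓘(ℝ, E) 𝓘(ℝ, ℝ) g (extChartAt 𝓘(ℝ, E) x₀ x₀) :=
    hg.mdifferentiableAt
  have h3 : mfderiv 𝓘(ℝ, E) 𝓘(ℝ, ℝ) f x₀ = _ := h0.mfderiv_eq
  rw [mfderiv_comp x₀ h2 h1, mfderiv_extChartAt_self, mfderiv_eq_fderiv] at h3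
  rw [pb_self]
  exact DFunLike.congr_fun h3 (U x₀)

theorem der_form [CompleteSpace E] (α : Form E X k) (x₀ : X) (U : Vec E X) (V : Fin k → Vec E X) :
    der U (fun y => α y fun i => V i y) x₀ =
      fderiv ℝ (fun y => GS.loc (chartAt E x₀) (fun x => α x) y fun i => pb x₀ (V i) y)
        (chartAt E x₀ x₀) (pb x₀ U (chartAt E x₀ x₀)) := by
  refine der_eq x₀ U ?_ fun y hy => loc_pb (fun x => α x) x₀ V hy
  exact ((contDiffAt_loc_chartAt α x₀).differentiableAt (by simp)).continuousAlternatingMap_apply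
    fun i => differentiableAt_pb x₀ (V i)

theorem ext_one {a : E → E [⋀^Fin 1]→L[ℝ] ℝ} {u v : E → E} {y : E} (ha : DifferentiableAt ℝ a y)
    (hu : DifferentiableAt ℝ u y) (hv : DifferentiableAt ℝ v y) :
    extDeriv a y ![u y, v y] = fderiv ℝ (fun z => a z ![v z]) y (u y)
      - fderiv ℝ (fun z => a z ![u z]) y (v y) - a y ![lieBracket ℝ u v y] := by
  have h := extDeriv_apply_vectorField (n := 0) (V := ![u, v]) ha
    (fun i => by fin_cases i <;> assumption)
  have h1 : ∀ z, (fun i => ![u, v] i z) = ![u z, v z] := by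
    intro z; funext i; fin_cases i <;> rfl
  simp only [h1] at h
  rw [h]
  have r0 : ∀ p q : E, Fin.removeNth (0 : Fin 2) (α := fun _ => E) ![p, q] = ![q] := by
    intro p q; funext i; fin_cases i; rfl
  have r1 : ∀ p q : E, Fin.removeNth (1 : Fin 2) (α := fun _ => E) ![p, q] = ![p] := by
    intro p q; funext i; fin_cases i; rfl
  have r2 : ∀ (p : E) (q : Fin 0 → E), Matrix.vecCons p q = ![p] := by
    intro p q; funext i; fin_cases i; rfl
  simp [Fin.sum_univ_succ, r0, r1, r2, sub_eq_add_neg]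

theorem ext_two {a : E → E [⋀^Fin 2]→L[ℝ] ℝ} {u v w : E → E} {y : E}
    (ha : DifferentiableAt ℝ a y) (hu : DifferentiableAt ℝ u y) (hv : DifferentiableAt ℝ v y)
    (hw : DifferentiableAt ℝ w y) :
    extDeriv a y ![u y, v y, w y] = fderiv ℝ (fun z => a z ![v z, w z]) y (u y)
      - fderiv ℝ (fun z => a z ![u z, w z]) y (v y) + fderiv ℝ (fun z => a z ![u z, v z]) y (w y)
      - a y ![lieBracket ℝ u v y, w y] + a y ![lieBracket ℝ u w y, v y]
      - a y ![lieBracket ℝ v w y, u y] := by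
  have h := extDeriv_apply_vectorField (n := 1) (V := ![u, v, w]) ha
    (fun i => by fin_cases i <;> assumption)
  have h1 : ∀ z, (fun i => ![u, v, w] i z) = ![u z, v z, w z] := by
    intro z; funext i; fin_cases i <;> rfl
  simp only [h1] at h
  rw [h]
  have r0 : ∀ p q r : E, Fin.removeNth (0 : Fin 3) (α := fun _ => E) ![p, q, r] = ![q, r] := by
    intro p q r; funext i; fin_cases i <;> rfl
  have r1 : ∀ p q r : E, Fin.removeNth (1 : Fin 3) (α := fun _ => E) ![p, q, r] = ![p, r] := by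
    intro p q r; funext i; fin_cases i <;> rfl
  have r2 : ∀ p q r : E, Fin.removeNth (2 : Fin 3) (α := fun _ => E) ![p, q, r] = ![p, q] := by
    intro p q r; funext i; fin_cases i <;> rfl
  have s0 : ∀ p q : E, Fin.removeNth (0 : Fin 2) (α := fun _ => E) ![p, q] = ![q] := by
    intro p q; funext i; fin_cases i; rfl
  have s1 : ∀ p q : E, Fin.removeNth (1 : Fin 2) (α := fun _ => E) ![p, q] = ![p] := by
    intro p q; funext i; fin_cases i; rfl
  have t0 : Finset.Ici (0 : Fin 2) = {0, 1} := by decide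
  have t1 : Finset.Ici (1 : Fin 2) = {1} := by decide
  rw [Fin.sum_univ_three, Fin.sum_univ_two, t0, t1, Finset.sum_pair (by decide),
    Finset.sum_singleton]
  simp [r0, r1, r2, s0, s1]
  ring

theorem dOne_eq [CompleteSpace E] (η : Form E X 1) (U V : Vec E X) (x₀ : X) :
    dOne η U V x₀ = extDeriv (GS.loc (chartAt E x₀) fun x => η x) (chartAt E x₀ x₀)
      ![pb x₀ U (chartAt E x₀ x₀), pb x₀ V (chartAt E x₀ x₀)] := by
  rw [ext_one ((contDiffAt_loc_chartAt η x₀).differentiableAt (by simp))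
    (differentiableAt_pb x₀ U) (differentiableAt_pb x₀ V), ← br_eq, loc_self]
  have c1 : ∀ A : Vec E X, (fun y => η y fun i => ![A] i y) = fun y => η y ![A y] := by
    intro A; funext y; congr 1; funext i; fin_cases i; rfl
  have c2 : ∀ (A : Vec E X) (y : E), (fun i => pb x₀ (![A] i) y) = ![pb x₀ A y] := by
    intro A y; funext i; fin_cases i; rfl
  have e1 := der_form η x₀ U ![V]
  have e2 := der_form η x₀ V ![U]
  simp only [c1, c2] at e1 e2
  change der U (fun y => η y ![V y]) x₀ - der V (fun y => η y ![U y]) x₀ - η x₀ ![br U V x₀] = _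
  rw [e1, e2]
  rfl

theorem dTwo_eq [CompleteSpace E] (α : Form E X 2) (U V W : Vec E X) (x₀ : X) :
    dTwo α U V W x₀ = extDeriv (GS.loc (chartAt E x₀) fun x => α x) (chartAt E x₀ x₀)
      ![pb x₀ U (chartAt E x₀ x₀), pb x₀ V (chartAt E x₀ x₀), pb x₀ W (chartAt E x₀ x₀)] := by
  rw [ext_two ((contDiffAt_loc_chartAt α x₀).differentiableAt (by simp))
    (differentiableAt_pb x₀ U) (differentiableAt_pb x₀ V) (differentiableAt_pb x₀ W),
    ← br_eq, ← br_eq, ← br_eq, loc_self, loc_self, loc_self]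
  have c1 : ∀ A B : Vec E X, (fun y => α y fun i => ![A, B] i y) = fun y => α y ![A y, B y] := by
    intro A B; funext y; congr 1; funext i; fin_cases i <;> rfl
  have c2 : ∀ (A B : Vec E X) (y : E),
      (fun i => pb x₀ (![A, B] i) y) = ![pb x₀ A y, pb x₀ B y] := by
    intro A B y; funext i; fin_cases i <;> rfl
  have e1 := der_form α x₀ U ![V, W]
  have e2 := der_form α x₀ V ![U, W]
  have e3 := der_form α x₀ W ![U, V]
  simp only [c1, c2] at e1 e2 e3
  change der U (fun y => α y ![V y, W y]) x₀ - der V (fun y => α y ![U y, W y]) x₀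
    + der W (fun y => α y ![U y, V y]) x₀
    - α x₀ ![br U V x₀, W x₀] + α x₀ ![br U W x₀, V x₀] - α x₀ ![br V W x₀, U x₀] = _
  rw [e1, e2, e3, pb_self, pb_self, pb_self]
  rfl

theorem exists_vec [FiniteDimensional ℝ E] [T2Space X] [CompactSpace X] (x₀ : X)
    (v : TangentSpace 𝓘(ℝ, E) x₀) : ∃ V : Vec E X, V x₀ = v := by
  classical
  let t : ∀ x : X, Set (TangentSpace 𝓘(ℝ, E) x) := fun x => {u : E | x = x₀ → u = v}
  have h1 : ∀ x, Convex ℝ (t x) := by
    intro x
    by_cases h : x = x₀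
    · have : t x = {show E from v} := by
        ext u
        exact ⟨fun hu => hu h, fun hu _ => hu⟩
      rw [this]; exact convex_singleton _
    · have : t x = univ := by
        ext u
        exact ⟨fun _ => trivial, fun _ hx => absurd hx h⟩
      rw [this]; exact convex_univ
  have h2 : ∀ x : X, ∃ U ∈ 𝓝 x, ∃ s : (y : X) → TangentSpace 𝓘(ℝ, E) y,
      ContMDiffOn 𝓘(ℝ, E) (𝓘(ℝ, E).prod 𝓘(ℝ, E)) ∞
        (fun y => (⟨y, s y⟩ : Bundle.TotalSpace E fun x : X => TangentSpace 𝓘(ℝ, E) x)) U ∧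
        ∀ y ∈ U, s y ∈ t y := by
    intro x
    by_cases h : x = x₀
    · subst h
      obtain ⟨U, hU, hc⟩ := FiberBundle.exists_contMDiffOn_extend (k := ∞) 𝓘(ℝ, E) E
        (V := fun x : X => TangentSpace 𝓘(ℝ, E) x) v
      refine ⟨U, hU, _, hc, fun y _ hy => ?_⟩
      subst hy
      exact FiberBundle.extend_apply_self E v
    · exact ⟨{x₀}ᶜ, isOpen_compl_singleton.mem_nhds h, fun _ => 0,
        (Bundle.contMDiff_zeroSection ℝ _).contMDiffOn, fun y hy hy' => absurd hy' hy⟩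
  obtain ⟨s, hs⟩ := exists_contMDiffSection_forall_mem_convex_of_local (I := 𝓘(ℝ, E)) (n := ⊤)
    (F_fiber := E) (fun x : X => TangentSpace 𝓘(ℝ, E) x) t h1 h2
  exact ⟨s, hs x₀ rfl⟩

theorem closed_of_isClosedForm [FiniteDimensional ℝ E] [T2Space X] [CompactSpace X]
    {α : Form E X 2} (h : IsClosedForm α) : GS.Closed fun x => α x := by
  have : CompleteSpace E := FiniteDimensional.complete ℝ E
  have h0 : ∀ x₀ : X, extDeriv (GS.loc (chartAt E x₀) fun x => α x) (chartAt E x₀ x₀) = 0 := by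
    intro x₀
    ext v
    obtain ⟨U, hU⟩ := exists_vec (E := E) x₀ (v 0)
    obtain ⟨V, hV⟩ := exists_vec (E := E) x₀ (v 1)
    obtain ⟨W, hW⟩ := exists_vec (E := E) x₀ (v 2)
    have h1 := h U V W x₀
    rw [dTwo_eq] at h1
    have h2 : v = ![pb x₀ U (chartAt E x₀ x₀), pb x₀ V (chartAt E x₀ x₀),
        pb x₀ W (chartAt E x₀ x₀)] := by
      funext i
      fin_cases i
      · exact ((pb_self x₀ U).trans hU).symm
      · exact ((pb_self x₀ V).trans hV).symm
      · exact ((pb_self x₀ W).trans hW).symm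
    rw [h2, h1]
    rfl
  intro e he y hy
  have hs := mem_chart_source E (e.symm y)
  have hc := chart_mem_atlas E (e.symm y)
  have ht := trans_contDiffAt he hc hy hs
  have hm : minSmoothness ℝ 2 ≤ (∞ : WithTop ℕ∞) := by
    rw [minSmoothness_of_isRCLikeNormedField]
    exact ENat.LEInfty.out
  have hd : DifferentiableAt ℝ (GS.loc (chartAt E (e.symm y)) fun x => α x)
      ((chartAt E (e.symm y) ∘ e.symm) y) :=
    (contDiffAt_loc_chartAt α (e.symm y)).differentiableAt (by simp)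
  rw [(loc_trans_ev _ he hc hy hs).extDeriv_eq, extDeriv_pullback hd ht hm]
  have h3 := h0 (e.symm y)
  ext v
  exact DFunLike.congr_fun h3 _

theorem isClosedForm_of_closed [CompleteSpace E] {α : Form E X 2} (h : GS.Closed fun x => α x) :
    IsClosedForm α := by
  intro U V W x
  rw [dTwo_eq, h _ (chart_mem_atlas E x) _ (mem_chart_target E x)]
  rfl

theorem cohomologous_of_exact [CompleteSpace E] {α β : Form E X 2}
    (h : GS.Exact (E := E) (X := X) fun x => β x - α x) : Cohomologous α β := by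
  obtain ⟨η, hη, h⟩ := h
  refine ⟨ofSmooth η hη, fun U V x => ?_⟩
  have h1 := h _ (chart_mem_atlas E x) _ (mem_chart_target E x)
  have h2 : (fun x => ofSmooth η hη x) = η := rfl
  rw [dOne_eq, h2, h1, loc_self, pb_self, pb_self]
  rfl

end Vale.Agent.P247U
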