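import Mathlib

/-!
# P247: hypersymplectic structures, coordinate-free definitions

`X` is a smooth manifold modelled on `E` (`E = ℝ⁴` in the theorem). Forms are smooth sections of
the bundle of alternating maps on the tangent spaces, and `d` is given on vector fields.
-/

open scoped Manifold ContDiff Bundle
open MeasureTheory Set

namespace Vale.Agent.P247U

section

variable (E : Type) [NormedAddCommGroup E] [NormedSpace ℝ E]
variable (X : Type) [TopologicalSpace X] [ChartedSpace E X]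

/-- The alternating `k`-linear real forms on the tangent space at `x`. -/
abbrev Alt (k : ℕ) (x : X) : Type :=
  TangentSpace 𝓘(ℝ, E) x [⋀^Fin k]→L[ℝ] Bundle.Trivial X ℝ x

variable [IsManifold 𝓘(ℝ, E) ∞ X]

/-- Smooth vector fields: smooth sections of the tangent bundle. -/
abbrev Vec : Type := Cₛ^∞⟮𝓘(ℝ, E); E, fun x : X => TangentSpace 𝓘(ℝ, E) x⟯

/-- Smooth real `k`-forms: smooth sections of the bundle of alternating `k`-linear forms. -/
abbrev Form (k : ℕ) : Type := Cₛ^∞⟮𝓘(ℝ, E); E [⋀^Fin k]→L[ℝ] ℝ, Alt E X k⟯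

variable {E X}

/-- The value of the `k`-form `α` on `k` tangent vectors at `x`. -/
noncomputable def val {k : ℕ} (α : Form E X k) (x : X) (v : Fin k → TangentSpace 𝓘(ℝ, E) x) : ℝ :=
  α x v

/-- The value `η(u)` of a one-form on a tangent vector at `x`. -/
noncomputable def val1 (η : Form E X 1) (x : X) (u : TangentSpace 𝓘(ℝ, E) x) : ℝ := val η x ![u]

/-- The value `α(u, v)` of a two-form on two tangent vectors at `x`. -/
noncomputable def val2 (α : Form E X 2) (x : X) (u v : TangentSpace 𝓘(ℝ, E) x) : ℝ :=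
  val α x ![u, v]

/-- The value of the vector field `U` at `x`. -/
noncomputable def vec (U : Vec E X) (x : X) : TangentSpace 𝓘(ℝ, E) x := U x

/-- The derivative `U(f)` at `x` of the function `f` along the vector field `U`. -/
noncomputable def der (U : Vec E X) (f : X → ℝ) (x : X) : ℝ := mvfderiv 𝓘(ℝ, E) f x (vec U x)

/-- The Lie bracket `[U, V]` at `x`. -/
noncomputable def br (U V : Vec E X) (x : X) : TangentSpace 𝓘(ℝ, E) x :=
  VectorField.mlieBracket 𝓘(ℝ, E) (vec U) (vec V) x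

/-- `(dη)(U, V) = U(η V) - V(η U) - η [U, V]` for a one-form `η`. -/
noncomputable def dOne (η : Form E X 1) (U V : Vec E X) (x : X) : ℝ :=
  der U (fun y => val1 η y (vec V y)) x - der V (fun y => val1 η y (vec U y)) x
    - val1 η x (br U V x)

/-- `(dα)(U, V, W)` for a two-form `α`. -/
noncomputable def dTwo (α : Form E X 2) (U V W : Vec E X) (x : X) : ℝ :=
  der U (fun y => val2 α y (vec V y) (vec W y)) x - der V (fun y => val2 α y (vec U y) (vec W y)) x
    + der W (fun y => val2 α y (vec U y) (vec V y)) x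
    - val2 α x (br U V x) (vec W x) + val2 α x (br U W x) (vec V x)
    - val2 α x (br V W x) (vec U x)

/-- `dα = 0`. -/
def IsClosedForm (α : Form E X 2) : Prop := ∀ U V W x, dTwo α U V W x = 0

/-- `β - α = dη` for a smooth one-form `η`: same de Rham class. -/
def Cohomologous (α β : Form E X 2) : Prop :=
  ∃ η : Form E X 1, ∀ (U V : Vec E X) (x : X),
    val2 β x (vec U x) (vec V x) - val2 α x (vec U x) (vec V x) = dOne η U V x

/-- The value of the four-form `α ∧ β` on four tangent vectors at `x`. -/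
noncomputable def wedge (α β : Form E X 2) (x : X) (v : Fin 4 → TangentSpace 𝓘(ℝ, E) x) : ℝ :=
  val2 α x (v 0) (v 1) * val2 β x (v 2) (v 3) - val2 α x (v 0) (v 2) * val2 β x (v 1) (v 3)
    + val2 α x (v 0) (v 3) * val2 β x (v 1) (v 2) + val2 α x (v 1) (v 2) * val2 β x (v 0) (v 3)
    - val2 α x (v 1) (v 3) * val2 β x (v 0) (v 2) + val2 α x (v 2) (v 3) * val2 β x (v 0) (v 1)

/-- `μ` is a volume form: it vanishes nowhere. It fixes the orientation of `X`. -/
def IsVolumeForm (μ : Form E X 4) : Prop := ∀ x, ∃ v, val μ x v ≠ 0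

/-- `w_i ∧ w_j = 2 Q_ij μ` everywhere. -/
def WedgeEq (μ : Form E X 4) (w : Fin 3 → Form E X 2) (Q : X → Matrix (Fin 3) (Fin 3) ℝ) : Prop :=
  ∀ i j x v, wedge (w i) (w j) x v = 2 * Q x i j * val μ x v

/-- Hypersymplectic structures on `X`, oriented by the volume form `μ`. -/
def Hypersymplectic (μ : Form E X 4) (w : Fin 3 → Form E X 2) : Prop :=
  (∀ i, IsClosedForm (w i)) ∧ ∃ Q, WedgeEq μ w Q ∧ ∀ x, (Q x).PosDef

/-- Hyperkaehler triples: closed, `w_i ∧ w_j = 2 δ_ij ν` for a positive volume form `ν`. -/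
def Hyperkahler (μ : Form E X 4) (w : Fin 3 → Form E X 2) : Prop :=
  (∀ i, IsClosedForm (w i)) ∧ ∃ ν : Form E X 4,
    (∀ x, ∃ c : ℝ, 0 < c ∧ ∀ v, val ν x v = c * val μ x v) ∧ WedgeEq ν w fun _ => 1

/-- The family of two-forms `A t` is smooth in `(t, x)`, as a map to the total space. -/
def SmoothFamily (A : ℝ → Form E X 2) : Prop :=
  ContMDiff (𝓘(ℝ, ℝ).prod 𝓘(ℝ, E)) (𝓘(ℝ, E).prod 𝓘(ℝ, E [⋀^Fin 2]→L[ℝ] ℝ)) ∞
    fun p : ℝ × X => (⟨p.2, A p.1 p.2⟩ : Bundle.TotalSpace (E [⋀^Fin 2]→L[ℝ] ℝ) (Alt E X 2))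

/-- `W` is a cohomologous deformation of `w`: smooth in `(t, x)`, starting at `w`,
hypersymplectic and in the classes of `w` for `0 ≤ t ≤ 1`. -/
def Deformation (μ : Form E X 4) (w : Fin 3 → Form E X 2) (W : ℝ → Fin 3 → Form E X 2) : Prop :=
  (∀ i, SmoothFamily fun t => W t i) ∧ W 0 = w ∧
    ∀ t ∈ Icc (0 : ℝ) 1, Hypersymplectic μ (W t) ∧ ∀ i, Cohomologous (w i) (W t i)

/-- `u_i = ∑_j A_ij w_j` for a constant invertible matrix `A`. -/
def LinearChange (w u : Fin 3 → Form E X 2) : Prop :=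
  ∃ A : Matrix (Fin 3) (Fin 3) ℝ, A.det ≠ 0 ∧
    ∀ i x v, val (u i) x v = ∑ j, A i j * val (w j) x v

/-- `m` is the measure of the four-form `μ`: in every chart `e`, with coordinates `y` for the
basis `b` of `E`, it is `|μ(∂/∂y₀, …, ∂/∂y₃)| dy`. -/
def IsMeasureOf [MeasureSpace E] [MeasurableSpace X] (b : Fin 4 → E) (μ : Form E X 4)
    (m : Measure X) : Prop :=
  ∀ e ∈ atlas E X, ∀ A : Set X, MeasurableSet A → A ⊆ e.source →
    m A = ∫⁻ y in e '' A, ENNReal.ofReal
      |val μ (e.symm y) fun i => mfderiv 𝓘(ℝ, E) 𝓘(ℝ, E) e.symm y (b i)|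

/-- `∫_X w_i ∧ w_j = δ_ij`, where `∫_X f μ` is the integral of `f` for the measure `m` of `μ`. -/
def Normalized [MeasurableSpace X] (μ : Form E X 4) (m : Measure X)
    (w : Fin 3 → Form E X 2) : Prop :=
  ∃ Q, WedgeEq μ w Q ∧ ∀ i j, ∫ x, 2 * Q x i j ∂m = if i = j then 1 else 0

end

/-- The model space `ℝ⁴`. -/
abbrev R4 : Type := EuclideanSpace ℝ (Fin 4)

/-- The standard basis of `ℝ⁴`. -/
noncomputable def std (i : Fin 4) : R4 := EuclideanSpace.single i 1

end Vale.Agent.P247U
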