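import Vale.Agent.P247I47.Nm

/-! # Assembly from the theorem in charts -/

open scoped Manifold ContDiff Bundle Topology
open Set MeasureTheory
open Vale.Agent.P247.SCY Vale.Agent.P247X

namespace Vale.Agent.P247U

theorem fin_of {X : Type} [TopologicalSpace X] [ChartedSpace R4 X] [IsManifold 𝓘(ℝ, R4) ∞ X]
    [CompactSpace X] [T2Space X] [ConnectedSpace X] [MeasurableSpace X] [BorelSpace X]
    (q : ∀ (μ : GS.Form R4 X 4), GS.Volume μ → ∀ w : Fin 3 → GS.Form R4 X 2,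
      GS.Hypersymplectic GS.bas μ w → GS.Normalized GS.bas μ w →
      ∃ W : ℝ → Fin 3 → GS.Form R4 X 2, GS.Deformation GS.bas μ w W ∧
        St.Hyperkahler GS.bas μ (W 1))
    (μ : Form R4 X 4) (hv : IsVolumeForm μ) :
    (∃! m : Measure X, IsMeasureOf std μ m) ∧
    (∀ m : Measure X, IsMeasureOf std μ m → IsFiniteMeasure m ∧
      ∀ w : Fin 3 → Form R4 X 2, Hypersymplectic μ w →
        (Normalized μ m w → ∃ W, Deformation μ w W ∧ Hyperkahler μ (W 1)) ∧
        ∃ u, LinearChange w u ∧ Hypersymplectic μ u ∧ Normalized μ m u) ∧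
    ((∃ w, Hypersymplectic μ w) → ∃ u, Hyperkahler μ u) := by
  have hμ := ne_zero_of_isVolumeForm hv
  have key : ∀ m : Measure X, IsMeasureOf std μ m → ∀ w : Fin 3 → Form R4 X 2, Hypersymplectic μ w →
      Normalized μ m w → ∃ W, Deformation μ w W ∧ Hyperkahler μ (W 1) := by
    intro m hm w hw hn
    obtain ⟨W, h1, h2⟩ := q (fun x => μ x) ⟨smooth_coe μ, hμ⟩ _ ((hyper_iff hμ w).1 hw)
      (normalized_of hμ hm hn)
    obtain ⟨W', h3, h4⟩ := deformation_of hμ h1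
    refine ⟨W', h3, hyperkahler_of hμ ?_⟩
    rw [h4 1]
    exact h2
  obtain ⟨m, hm⟩ := exists_isMeasureOf μ
  refine ⟨⟨m, hm, fun m' hm' => (vol_eq_of_isMeasureOf hm').symm.trans (vol_eq_of_isMeasureOf hm)⟩,
    fun m hm => ⟨finite_of_isMeasureOf hm, fun w hw => ⟨key m hm w hw, exists_normalized hμ hm hw⟩⟩,
    ?_⟩
  rintro ⟨w, hw⟩
  obtain ⟨u, _, h1, h2⟩ := exists_normalized hμ hm hw
  obtain ⟨W, _, h3⟩ := key m hm u h1 h2
  exact ⟨_, h3⟩

end Vale.Agent.P247U
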