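import Vale.Agent.P247I47.Sm

/-! # The measure of a four-form: existence, uniqueness, finiteness -/

open scoped Manifold ContDiff Bundle Topology
open Set MeasureTheory
open Vale.Agent.P247.SCY

namespace Vale.Agent.P247U

theorem alt_comp_basis {E : Type} [NormedAddCommGroup E] [NormedSpace ℝ E] {k : ℕ}
    (b : Module.Basis (Fin k) ℝ E) (a : E [⋀^Fin k]→L[ℝ] ℝ) (v : Fin k → E) :
    a v = b.det v * a b := by
  have h := DFunLike.congr_fun (a.toAlternatingMap.eq_smul_basis_det b) v
  simp only [AlternatingMap.smul_apply, smul_eq_mul] at h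
  rw [mul_comm]
  exact h

/-- The standard basis of `ℝ⁴`. -/
noncomputable def sb : Module.Basis (Fin 4) ℝ R4 := (EuclideanSpace.basisFun (Fin 4) ℝ).toBasis

theorem sb_eq : (sb : Fin 4 → R4) = GS.bas := by
  funext i
  simp [sb, GS.bas]

variable {X : Type} [TopologicalSpace X] [ChartedSpace R4 X] [IsManifold 𝓘(ℝ, R4) ∞ X]

/-- The density in the chart `e`. -/
noncomputable def dens (μ : Form R4 X 4) (e : OpenPartialHomeomorph X R4) (y : R4) : ENNReal :=
  ENNReal.ofReal |GS.loc e (fun x => μ x) y GS.bas|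

variable [MeasurableSpace X] [BorelSpace X]

omit [BorelSpace X] in
theorem isMeasureOf_iff (μ : Form R4 X 4) (m : Measure X) : IsMeasureOf std μ m ↔
    ∀ e ∈ atlas R4 X, ∀ A : Set X, MeasurableSet A → A ⊆ e.source →
      m A = ∫⁻ y in e '' A, dens μ e y := Iff.rfl

omit [ChartedSpace R4 X] [IsManifold 𝓘(ℝ, R4) ∞ X] in
theorem measurableSet_image (e : OpenPartialHomeomorph X R4) {A : Set X} (hA : MeasurableSet A)
    (h : A ⊆ e.source) : MeasurableSet (e '' A) := by
  have h1 : Measurable fun y : e.target => e.symm y :=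
    (continuousOn_iff_continuous_domRestrict.1 e.continuousOn_symm).measurable
  have h2 := e.open_target.measurableSet.subtype_image (h1 hA)
  convert h2 using 1
  rw [e.image_eq_target_inter_inv_preimage h]
  ext y
  constructor
  · rintro ⟨h3, h4⟩; exact ⟨⟨y, h3⟩, h4, rfl⟩
  · rintro ⟨z, h3, rfl⟩; exact ⟨z.2, h3⟩

theorem dens_compat (μ : Form R4 X 4) {e e' : OpenPartialHomeomorph X R4} (he : e ∈ atlas R4 X)
    (he' : e' ∈ atlas R4 X) {A : Set X} (hA : MeasurableSet A) (h : A ⊆ e.source)
    (h' : A ⊆ e'.source) : ∫⁻ y in e' '' A, dens μ e' y = ∫⁻ y in e '' A, dens μ e y := by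
  have hm := measurableSet_image e hA h
  have h1 : e' '' A = (e' ∘ e.symm) '' (e '' A) := by
    have h0 : e.symm '' (e '' A) = A := e.toPartialEquiv.symm_image_image_of_subset_source h
    rw [image_comp, h0]
  have h2 : ∀ y ∈ e '' A, y ∈ e.target ∧ e.symm y ∈ e'.source := by
    rintro _ ⟨x, hx, rfl⟩
    exact ⟨e.map_source (h hx), by rw [e.left_inv (h hx)]; exact h' hx⟩
  have h3 : InjOn (e' ∘ e.symm) (e '' A) := by
    intro y hy z hz hyz
    exact e.symm.injOn (h2 y hy).1 (h2 z hz).1 (e'.injOn (h2 y hy).2 (h2 z hz).2 hyz)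
  rw [h1, lintegral_image_eq_lintegral_abs_det_fderiv_mul volume hm
    (f' := fun y => fderiv ℝ (e' ∘ e.symm) y) (fun y hy =>
      (((trans_contDiffAt he he' (h2 y hy).1 (h2 y hy).2).differentiableAt
        (by simp)).hasFDerivAt).hasFDerivWithinAt) h3]
  refine setLIntegral_congr_fun hm fun y hy => ?_
  simp only [dens]
  rw [← ENNReal.ofReal_mul (abs_nonneg _), ← abs_mul,
    loc_trans _ he he' (h2 y hy).1 (h2 y hy).2, ContinuousAlternatingMap.compContinuousLinearMap_apply,
    alt_comp_basis sb _ (_ ∘ _), ← sb_eq]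
  congr 3
  have := sb.det_comp (fderiv ℝ (e' ∘ e.symm) y : R4 →ₗ[ℝ] R4) sb
  rw [Module.Basis.det_self, mul_one] at this
  exact this.symm

/-- The measure carried by the chart `e`. -/
noncomputable def volC (μ : Form R4 X 4) (e : OpenPartialHomeomorph X R4) : Measure X :=
  Measure.map e.symm ((volume.restrict e.target).withDensity (dens μ e))

theorem volC_apply (μ : Form R4 X 4) (e : OpenPartialHomeomorph X R4) {A : Set X}
    (hA : MeasurableSet A) : volC μ e A = ∫⁻ z in e '' (e.source ∩ A), dens μ e z := by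
  have h1 : AEMeasurable e.symm (volume.restrict e.target) :=
    e.continuousOn_symm.aemeasurable e.open_target.measurableSet
  have h2 : AEMeasurable e.symm ((volume.restrict e.target).withDensity (dens μ e)) :=
    h1.mono_ac (withDensity_absolutelyContinuous _ _)
  rw [volC, Measure.map_apply_of_aemeasurable h2 hA, withDensity_apply',
    Measure.restrict_restrict' e.open_target.measurableSet, e.image_source_inter_eq', inter_comm]

omit [IsManifold 𝓘(ℝ, R4) ∞ X] in
theorem exists_cover [CompactSpace X] [Nonempty X] : ∃ (x : ℕ → X) (D : ℕ → Set X),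
    (∀ n, MeasurableSet (D n)) ∧ Pairwise (Function.onFun Disjoint D) ∧ ⋃ n, D n = univ ∧
      ∀ n, D n ⊆ (chartAt R4 (x n)).source := by
  obtain ⟨s, hs, hc⟩ := countable_cover_nhds_of_sigmaCompact
    (f := fun x : X => (chartAt R4 x).source) fun x => chart_source_mem_nhds R4 x
  have hne : s.Nonempty := by
    by_contra h
    rw [not_nonempty_iff_eq_empty] at h
    subst h
    simp at hc
    exact (empty_ne_univ hc).elim
  obtain ⟨x, rfl⟩ := hs.exists_eq_range hne
  refine ⟨x, disjointed fun n => (chartAt R4 (x n)).source,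
    MeasurableSet.disjointed fun n => (chartAt R4 (x n)).open_source.measurableSet,
    disjoint_disjointed _, ?_, disjointed_subset _⟩
  rw [iUnion_disjointed, ← hc, biUnion_range]

omit [ChartedSpace R4 X] [IsManifold 𝓘(ℝ, R4) ∞ X] [BorelSpace X] [TopologicalSpace X] in
theorem measure_eq_tsum (m : Measure X) {D : ℕ → Set X} (h1 : ∀ n, MeasurableSet (D n))
    (h2 : Pairwise (Function.onFun Disjoint D)) (h3 : ⋃ n, D n = univ) {A : Set X}
    (hA : MeasurableSet A) : m A = ∑' n, m (A ∩ D n) := by
  rw [← measure_iUnion (fun i j hij => (h2 hij).mono inter_subset_right inter_subset_right)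
    fun n => hA.inter (h1 n), ← inter_iUnion, h3, inter_univ]

theorem exists_isMeasureOf [CompactSpace X] [Nonempty X] (μ : Form R4 X 4) :
    ∃ m, IsMeasureOf std μ m := by
  obtain ⟨x, D, h1, h2, h3, h4⟩ := exists_cover (X := X)
  refine ⟨Measure.sum fun n => (volC μ (chartAt R4 (x n))).restrict (D n), ?_⟩
  rw [isMeasureOf_iff]
  intro e he A hA hAe
  have h5 : ∫⁻ y in e '' A, dens μ e y = volC μ e A := by
    rw [volC_apply μ e hA, inter_eq_right.2 hAe]
  rw [Measure.sum_apply _ hA, h5, measure_eq_tsum (volC μ e) h1 h2 h3 hA]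
  congr 1
  funext n
  have h6 : A ∩ D n ⊆ (chartAt R4 (x n)).source := inter_subset_right.trans (h4 n)
  have h7 : A ∩ D n ⊆ e.source := inter_subset_left.trans hAe
  rw [Measure.restrict_apply hA, volC_apply μ _ (hA.inter (h1 n)), volC_apply μ _ (hA.inter (h1 n)),
    inter_eq_right.2 h6, inter_eq_right.2 h7]
  exact dens_compat μ he (chart_mem_atlas R4 (x n)) (hA.inter (h1 n)) h7 h6

theorem vol_eq_of_isMeasureOf [CompactSpace X] [Nonempty X] {μ : Form R4 X 4} {m : Measure X}
    (h : IsMeasureOf std μ m) : GS.vol GS.bas (fun x => μ x) = m := by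
  have h0 : GS.vol GS.bas (fun x => μ x) = ⨆ e ∈ atlas R4 X, volC μ e := rfl
  have h1 : ∀ e ∈ atlas R4 X, volC μ e = m.restrict e.source := by
    intro e he
    ext A hA
    rw [volC_apply μ e hA, Measure.restrict_apply hA, inter_comm A]
    exact (h e he _ (e.open_source.measurableSet.inter hA) inter_subset_left).symm
  rw [h0]
  apply le_antisymm
  · refine iSup₂_le fun e he => ?_
    rw [h1 e he]
    exact Measure.restrict_le_self
  · obtain ⟨x, D, d1, d2, d3, d4⟩ := exists_cover (X := X)
    refine Measure.le_iff.2 fun A hA => ?_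
    rw [measure_eq_tsum m d1 d2 d3 hA, measure_eq_tsum _ d1 d2 d3 hA]
    refine ENNReal.tsum_le_tsum fun n => ?_
    have h2 : m (A ∩ D n) = volC μ (chartAt R4 (x n)) (A ∩ D n) := by
      rw [h1 _ (chart_mem_atlas R4 (x n)), Measure.restrict_apply (hA.inter (d1 n)),
        inter_eq_left.2 (inter_subset_right.trans (d4 n))]
    rw [h2]
    exact (le_iSup₂ (f := fun e (_ : e ∈ atlas R4 X) => volC μ e) _
      (chart_mem_atlas R4 (x n))) _

theorem finite_of_isMeasureOf [CompactSpace X] {μ : Form R4 X 4} {m : Measure X}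
    (h : IsMeasureOf std μ m) : IsFiniteMeasure m := by
  have : IsLocallyFiniteMeasure m := by
    refine ⟨fun x => ?_⟩
    set c := chartAt R4 x with hc
    have ht : c x ∈ c.target := mem_chart_target R4 x
    obtain ⟨K, hK, hKt, hKc⟩ := local_compact_nhds (c.open_target.mem_nhds ht)
    have hA : IsOpen (c.source ∩ c ⁻¹' interior K) := c.isOpen_inter_preimage isOpen_interior
    refine ⟨c.source ∩ c ⁻¹' interior K,
      hA.mem_nhds ⟨mem_chart_source R4 x, mem_interior_iff_mem_nhds.2 hK⟩, ?_⟩
    rw [h c (chart_mem_atlas R4 x) _ hA.measurableSet inter_subset_left]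
    have h1 : c '' (c.source ∩ c ⁻¹' interior K) ⊆ K := by
      rintro _ ⟨z, hz, rfl⟩
      exact interior_subset hz.2
    have h2 : ContinuousOn (fun y => |GS.loc c (fun x => μ x) y GS.bas|) K :=
      (((ContinuousAlternatingMap.apply ℝ R4 ℝ GS.bas).continuous.comp_continuousOn
        (smooth_coe μ c (chart_mem_atlas R4 x)).continuousOn).mono hKt).abs
    exact (lintegral_mono_set h1).trans_lt (h2.integrableOn_compact hKc).lintegral_lt_top
  exact CompactSpace.isFiniteMeasure

end Vale.Agent.P247U
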