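import Vale.Agent.P247I47.Tr

/-! # Every hypersymplectic structure is normalized by a constant linear change -/

open scoped Manifold ContDiff Bundle Topology Matrix
open Set MeasureTheory
open Vale.Agent.P247.SCY Vale.Agent.P247X

namespace Vale.Agent.P247U

open scoped MatrixOrder in
theorem exists_cong {G : Matrix (Fin 3) (Fin 3) ℝ} (hG : G.PosDef) :
    ∃ A : Matrix (Fin 3) (Fin 3) ℝ, IsUnit A ∧ A * G * Aᵀ = 1 := by
  obtain ⟨B, hB, rfl⟩ := CStarAlgebra.isStrictlyPositive_iff_eq_star_mul_self.mp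
    hG.isStrictlyPositive
  have h1 : IsUnit B.det := (Matrix.isUnit_iff_isUnit_det B).1 hB
  have h2 : IsUnit Bᵀ.det := by rwa [Matrix.det_transpose]
  refine ⟨Bᵀ⁻¹, Matrix.isUnit_nonsing_inv_iff.2 ((Matrix.isUnit_iff_isUnit_det _).2 h2), ?_⟩
  rw [Matrix.star_eq_conjTranspose, Matrix.conjTranspose_eq_transpose_of_trivial,
    Matrix.transpose_nonsing_inv, Matrix.transpose_transpose, ← Matrix.mul_assoc,
    Matrix.nonsing_inv_mul _ h2, Matrix.one_mul, Matrix.mul_nonsing_inv _ h1]

variable {X : Type} [TopologicalSpace X] [ChartedSpace R4 X] [IsManifold 𝓘(ℝ, R4) ∞ X]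

theorem contAt_loc {k : ℕ} (α : Form R4 X k) (x₀ : X) (v : Fin k → R4) :
    ContinuousAt (fun y => GS.loc (chartAt R4 x₀) (fun x => α x) y v) (chartAt R4 x₀ x₀) :=
  (ContinuousAlternatingMap.apply ℝ R4 ℝ v).continuous.continuousAt.comp
    (contDiffAt_loc_chartAt α x₀).continuousAt

theorem continuous_Q {μ : Form R4 X 4} (hμ : ∀ x, μ x ≠ 0) {w : Fin 3 → Form R4 X 2}
    {Q : X → Matrix (Fin 3) (Fin 3) ℝ} (h : WedgeEq μ w Q) (i j : Fin 3) :
    Continuous fun x => 2 * Q x i j := by
  refine continuous_iff_continuousAt.2 fun x₀ => ?_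
  set c := chartAt R4 x₀ with hc
  have hs : x₀ ∈ c.source := mem_chart_source R4 x₀
  have h0 : GS.loc c (fun x => μ x) (c x₀) GS.bas ≠ 0 := by
    rw [hc, loc_self]
    exact bas_ne_zero (hμ x₀)
  have h1 : ContinuousAt (fun y => GS.wedge (GS.loc c (fun x => w i x) y)
      (GS.loc c (fun x => w j x) y) GS.bas / GS.loc c (fun x => μ x) y GS.bas) (c x₀) := by
    refine ContinuousAt.div ?_ (contAt_loc μ x₀ _) h0
    unfold GS.wedge
    exact ((((((contAt_loc _ x₀ _).mul (contAt_loc _ x₀ _)).sub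
      ((contAt_loc _ x₀ _).mul (contAt_loc _ x₀ _))).add
      ((contAt_loc _ x₀ _).mul (contAt_loc _ x₀ _))).add
      ((contAt_loc _ x₀ _).mul (contAt_loc _ x₀ _))).sub
      ((contAt_loc _ x₀ _).mul (contAt_loc _ x₀ _))).add
      ((contAt_loc _ x₀ _).mul (contAt_loc _ x₀ _))
  have h2 := h1.comp (c.continuousAt hs)
  refine h2.congr ?_
  have h3 : ∀ᶠ x in 𝓝 x₀, GS.loc c (fun x => μ x) (c x) GS.bas ≠ 0 :=
    (c.continuousAt hs).eventually ((contAt_loc μ x₀ GS.bas).eventually_ne h0)
  filter_upwards [h3, c.open_source.mem_nhds hs] with x hx hxs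
  have h4 := h i j (c.symm (c x)) fun k => mfderiv 𝓘(ℝ, R4) 𝓘(ℝ, R4) c.symm (c x) (GS.bas k)
  have h5 : ∀ (α : Form R4 X 2) (p q : Fin 4), GS.loc c (fun x => α x) (c x) ![GS.bas p, GS.bas q] =
      α (c.symm (c x)) ![mfderiv 𝓘(ℝ, R4) 𝓘(ℝ, R4) c.symm (c x) (GS.bas p),
        mfderiv 𝓘(ℝ, R4) 𝓘(ℝ, R4) c.symm (c x) (GS.bas q)] := by
    intro α p q
    refine congrArg (α (c.symm (c x))) ?_
    funext l; fin_cases l <;> rfl
  have h6 : GS.wedge (GS.loc c (fun x => w i x) (c x)) (GS.loc c (fun x => w j x) (c x)) GS.bas =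
      2 * Q (c.symm (c x)) i j * GS.loc c (fun x => μ x) (c x) GS.bas := by
    simp only [GS.wedge, h5]
    exact h4
  rw [c.left_inv hxs] at h6
  simp only [Function.comp_apply, h6]
  field_simp

variable [MeasurableSpace X] [BorelSpace X]

theorem ne_zero_of_isMeasureOf [Nonempty X] {μ : Form R4 X 4} (hμ : ∀ x, μ x ≠ 0) {m : Measure X}
    (h : IsMeasureOf std μ m) : m ≠ 0 := by
  intro h0
  obtain ⟨x₀⟩ := ‹Nonempty X›
  set c := chartAt R4 x₀ with hc
  have h1 := h c (chart_mem_atlas R4 x₀) c.source c.open_source.measurableSet subset_rfl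
  rw [h0, c.image_source_eq_target] at h1
  have h2 : ContinuousOn (fun y => |GS.loc c (fun x => μ x) y GS.bas|) c.target :=
    ((ContinuousAlternatingMap.apply ℝ R4 ℝ GS.bas).continuous.comp_continuousOn
      (smooth_coe μ c (chart_mem_atlas R4 x₀)).continuousOn).abs
  have h3 : ContinuousOn (dens μ c) c.target := ENNReal.continuous_ofReal.comp_continuousOn h2
  have h4 : dens μ c =ᵐ[volume.restrict c.target] 0 :=
    (lintegral_eq_zero_iff' (h3.aemeasurable c.open_target.measurableSet)).1 h1.symm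
  have h5 := Measure.eqOn_open_of_ae_eq h4 c.open_target h3 continuousOn_const
    (mem_chart_target R4 x₀)
  have h6 : GS.loc c (fun x => μ x) (c x₀) GS.bas ≠ 0 := by
    rw [hc, loc_self]
    exact bas_ne_zero (hμ x₀)
  simp only [dens, Pi.zero_apply, ENNReal.ofReal_eq_zero] at h5
  exact h6 (abs_nonpos_iff.1 h5)

variable [CompactSpace X]

theorem gram_posDef [Nonempty X] {μ : Form R4 X 4} (hμ : ∀ x, μ x ≠ 0) {m : Measure X}
    (hm : IsMeasureOf std μ m) {w : Fin 3 → Form R4 X 2} {Q : X → Matrix (Fin 3) (Fin 3) ℝ}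
    (h : WedgeEq μ w Q) (hQ : ∀ x, (Q x).PosDef) :
    (Matrix.of fun i j => ∫ x, 2 * Q x i j ∂m).PosDef := by
  have := finite_of_isMeasureOf hm
  have hi : ∀ i j, Integrable (fun x => 2 * Q x i j) m := fun i j =>
    (continuous_Q hμ h i j).integrable_of_hasCompactSupport (HasCompactSupport.of_compactSpace _)
  refine Matrix.PosDef.of_dotProduct_mulVec_pos ?_ fun v hv => ?_
  · ext i j
    simp only [Matrix.conjTranspose_apply, Matrix.of_apply, star_trivial]
    congr 1
    funext x
    have := (hQ x).isHermitian.apply i j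
    rw [star_trivial] at this
    rw [this]
  · have h1 : star v ⬝ᵥ (Matrix.of fun i j => ∫ x, 2 * Q x i j ∂m).mulVec v =
        ∫ x, ∑ i, ∑ j, v i * (2 * Q x i j * v j) ∂m := by
      rw [integral_finsetSum _ fun i _ => integrable_finsetSum _ fun j _ =>
        ((hi i j).mul_const _).const_mul _]
      simp only [dotProduct, Matrix.mulVec, Matrix.of_apply, star_trivial, Finset.mul_sum]
      refine Finset.sum_congr rfl fun i _ => ?_
      rw [integral_finsetSum _ fun j _ => ((hi i j).mul_const _).const_mul _]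
      refine Finset.sum_congr rfl fun j _ => ?_
      rw [integral_const_mul (v i), integral_mul_const]
    rw [h1]
    have h2 : ∀ x, 0 < ∑ i, ∑ j, v i * (2 * Q x i j * v j) := by
      intro x
      have h3 := (hQ x).dotProduct_mulVec_pos hv
      simp only [dotProduct, Matrix.mulVec, star_trivial, Fin.sum_univ_three] at h3 ⊢
      linarith
    rw [integral_pos_iff_support_of_nonneg (fun x => (h2 x).le)
      (integrable_finsetSum _ fun i _ => integrable_finsetSum _ fun j _ =>
        ((hi i j).mul_const _).const_mul _)]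
    have h4 : (Function.support fun x => ∑ i, ∑ j, v i * (2 * Q x i j * v j)) = univ :=
      eq_univ_of_forall fun x => (h2 x).ne'
    rw [h4]
    exact Measure.measure_univ_pos.2 (ne_zero_of_isMeasureOf hμ hm)

omit [MeasurableSpace X] [BorelSpace X] [CompactSpace X] in
theorem exists_comb (a : Fin 3 → ℝ) (w : Fin 3 → Form R4 X 2)
    (hw : ∀ j, GS.Closed fun x => w j x) : ∃ u : Form R4 X 2,
      (∀ x v, val u x v = ∑ j, a j * val (w j) x v) ∧ IsClosedForm u := by
  let f : GS.Form R4 X 2 := fun x => ∑ j, a j • (w j x : TangentSpace 𝓘(ℝ, R4) x [⋀^Fin 2]→L[ℝ] ℝ)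
  have h0 : ∀ x v, f x v = ∑ j, a j * w j x v := by
    intro x v
    simp only [f, Fin.sum_univ_three]
    rfl
  have h1 : ∀ e : OpenPartialHomeomorph X R4, GS.loc e f =
      (a 0 • GS.loc e fun x => w 0 x) + (a 1 • GS.loc e fun x => w 1 x)
        + a 2 • GS.loc e fun x => w 2 x := by
    intro e
    funext y
    ext v
    have := h0 (e.symm y) fun i => mfderiv 𝓘(ℝ, R4) 𝓘(ℝ, R4) e.symm y (v i)
    rw [Fin.sum_univ_three] at this
    exact this
  have h2 : GS.Smooth f := by
    intro e he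
    rw [h1]
    exact (((smooth_coe (w 0) e he).const_smul (a 0)).add
      ((smooth_coe (w 1) e he).const_smul (a 1))).add ((smooth_coe (w 2) e he).const_smul (a 2))
  refine ⟨ofSmooth f h2, h0, isClosedForm_of_closed ?_⟩
  intro e he y hy
  have hd : ∀ j, DifferentiableAt ℝ (a j • GS.loc e fun x => w j x) y := fun j =>
    (((smooth_coe (w j) e he).contDiffAt (e.open_target.mem_nhds hy)).differentiableAt
      (by simp)).const_smul (a j)
  change extDeriv (GS.loc e f) y = 0
  rw [h1, extDeriv_add ((hd 0).add (hd 1)) (hd 2), extDeriv_add (hd 0) (hd 1), extDeriv_smul,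
    extDeriv_smul, extDeriv_smul, hw 0 e he y hy, hw 1 e he y hy, hw 2 e he y hy]
  simp

theorem exists_normalized [T2Space X] [Nonempty X] {μ : Form R4 X 4} (hμ : ∀ x, μ x ≠ 0)
    {m : Measure X} (hm : IsMeasureOf std μ m) {w : Fin 3 → Form R4 X 2} (hw : Hypersymplectic μ w) :
    ∃ u, LinearChange w u ∧ Hypersymplectic μ u ∧ Normalized μ m u := by
  obtain ⟨h1, Q, h2, h3⟩ := hw
  have hG := gram_posDef hμ hm h2 h3
  have := finite_of_isMeasureOf hm
  have hi : ∀ i j, Integrable (fun x => 2 * Q x i j) m := fun i j =>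
    (continuous_Q hμ h2 i j).integrable_of_hasCompactSupport (HasCompactSupport.of_compactSpace _)
  obtain ⟨A, hA, hAG⟩ : ∃ A : Matrix (Fin 3) (Fin 3) ℝ, IsUnit A ∧
      A * (Matrix.of fun i j => ∫ x, 2 * Q x i j ∂m) * Aᵀ = 1 := by
    exact exists_cong hG
  choose u hu hc using fun i => exists_comb (A i) w fun j => closed_of_isClosedForm (h1 j)
  have hW : WedgeEq μ u fun x => A * Q x * Aᵀ := by
    intro i j x v
    have h4 := fun p q => h2 p q x v
    simp only [wedge, val2] at h4 ⊢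
    simp only [hu, Matrix.mul_apply, Matrix.transpose_apply, Fin.sum_univ_three]
    linear_combination A i 0 * A j 0 * h4 0 0 + A i 0 * A j 1 * h4 0 1 + A i 0 * A j 2 * h4 0 2
      + A i 1 * A j 0 * h4 1 0 + A i 1 * A j 1 * h4 1 1 + A i 1 * A j 2 * h4 1 2
      + A i 2 * A j 0 * h4 2 0 + A i 2 * A j 1 * h4 2 1 + A i 2 * A j 2 * h4 2 2
  refine ⟨u, ⟨A, ((Matrix.isUnit_iff_isUnit_det A).1 hA).ne_zero, hu⟩, ⟨hc, _, hW, fun x => ?_⟩,
    _, hW, fun i j => ?_⟩
  · have := (h3 x).mul_mul_conjTranspose_same (B := A) (Matrix.vecMul_injective_of_isUnit hA)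
    rwa [Matrix.conjTranspose_eq_transpose_of_trivial] at this
  · have h5 := congrFun (congrFun hAG i) j
    rw [Matrix.one_apply] at h5
    rw [← h5]
    have h6 : ∀ x, 2 * (A * Q x * Aᵀ) i j = ∑ q, ∑ p, A i p * (2 * Q x p q) * A j q := by
      intro x
      simp only [Matrix.mul_apply, Matrix.transpose_apply, Fin.sum_univ_three]
      ring
    simp only [h6]
    rw [integral_finsetSum _ fun q _ => integrable_finsetSum _ fun p _ =>
      ((hi p q).const_mul _).mul_const _]
    simp only [Matrix.mul_apply, Matrix.transpose_apply, Matrix.of_apply, Finset.sum_mul]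
    refine Finset.sum_congr rfl fun q _ => ?_
    rw [integral_finsetSum _ fun p _ => ((hi p q).const_mul _).mul_const _]
    refine Finset.sum_congr rfl fun p _ => ?_
    rw [integral_mul_const, integral_const_mul]

end Vale.Agent.P247U
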