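import Vale.Agent.P247I47.Defs
import Vale.Agent.P247.SCY.StmtG

/-! # Smooth sections of the bundle of alternating maps versus smoothness in charts -/

open scoped Manifold ContDiff Bundle Topology
open Set
open Vale.Agent.P247.SCY

namespace Vale.Agent.P247U

variable {E : Type} [NormedAddCommGroup E] [NormedSpace ℝ E]

theorem contDiffAt_alt_apply {Y : Type*} [NormedAddCommGroup Y] [NormedSpace ℝ Y] {k : ℕ}
    {a : Y → E [⋀^Fin k]→L[ℝ] ℝ} {v : Fin k → Y → E} {y : Y} (ha : ContDiffAt ℝ ∞ a y)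
    (hv : ∀ i, ContDiffAt ℝ ∞ (v i) y) : ContDiffAt ℝ ∞ (fun z => a z fun i => v i z) y := by
  have h1 : ContDiffAt ℝ ∞ (fun p : (E [⋀^Fin k]→L[ℝ] ℝ) × (Fin k → E) =>
      (ContinuousAlternatingMap.toContinuousMultilinearMapCLM ℝ :
        (E [⋀^Fin k]→L[ℝ] ℝ) →L[ℝ] ContinuousMultilinearMap ℝ (fun _ : Fin k => E) ℝ) p.1 p.2)
      (a y, fun i => v i y) :=
    (ContinuousLinearMap.analyticAt_uncurry_of_multilinear _).contDiffAt
  exact h1.comp y (ha.prodMk (contDiffAt_pi.2 hv))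

theorem contDiffAt_alt [FiniteDimensional ℝ E] {Y : Type*} [NormedAddCommGroup Y]
    [NormedSpace ℝ Y] {k : ℕ} {a : Y → E [⋀^Fin k]→L[ℝ] ℝ} {y : Y}
    (h : ∀ v : Fin k → E, ContDiffAt ℝ ∞ (fun z => a z v) y) : ContDiffAt ℝ ∞ a y := by
  let b := Module.finBasis ℝ E
  let ev : (E [⋀^Fin k]→L[ℝ] ℝ) →ₗ[ℝ] ((Fin k → Fin (Module.finrank ℝ E)) → ℝ) :=
    { toFun := fun f s => f fun i => b (s i)
      map_add' := fun _ _ => rfl
      map_smul' := fun _ _ => rfl }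
  have hinj : LinearMap.ker ev = ⊥ := by
    rw [LinearMap.ker_eq_bot']
    intro f hf
    have h0 : f.toAlternatingMap.toMultilinearMap = 0 := by
      refine Module.Basis.ext_multilinear (fun _ => b) fun s => ?_
      exact congrFun hf s
    ext v
    exact DFunLike.congr_fun h0 v
  obtain ⟨g, hg⟩ := ev.exists_leftInverse_of_injective hinj
  have h1 : a = fun z => LinearMap.toContinuousLinearMap g (ev (a z)) := by
    funext z
    exact (DFunLike.congr_fun hg (a z)).symm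
  rw [h1]
  exact (LinearMap.toContinuousLinearMap g).contDiff.contDiffAt.comp y
    (contDiffAt_pi.2 fun s => h _)

theorem contDiffAt_alt_comp [FiniteDimensional ℝ E] {Y : Type*} [NormedAddCommGroup Y]
    [NormedSpace ℝ Y] {k : ℕ} {a : Y → E [⋀^Fin k]→L[ℝ] ℝ} {L : Y → E →L[ℝ] E} {y : Y}
    (ha : ContDiffAt ℝ ∞ a y) (hL : ContDiffAt ℝ ∞ L y) :
    ContDiffAt ℝ ∞ (fun z => (a z).compContinuousLinearMap (L z)) y :=
  contDiffAt_alt fun v => contDiffAt_alt_apply (v := fun i z => L z (v i)) ha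
    fun _ => hL.clm_apply contDiffAt_const

variable {X : Type} [TopologicalSpace X] [ChartedSpace E X] [IsManifold 𝓘(ℝ, E) ∞ X] {k : ℕ}

theorem symmL_eq {x₀ x : X} (hx : x ∈ (chartAt E x₀).source) :
    (trivializationAt E (TangentSpace 𝓘(ℝ, E)) x₀).symmL ℝ x =
      mfderiv 𝓘(ℝ, E) 𝓘(ℝ, E) (chartAt E x₀).symm (chartAt E x₀ x) := by
  rw [TangentBundle.symmL_trivializationAt hx]
  simp only [modelWithCornersSelf_coe, range_id, mfderivWithin_univ]
  rfl

theorem triv_eq (α : GS.Form E X k) {x₀ x : X} (hx : x ∈ (chartAt E x₀).source) :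
    (trivializationAt (E [⋀^Fin k]→L[ℝ] ℝ) (Alt E X k) x₀ ⟨x, α x⟩).2 =
      GS.loc (chartAt E x₀) α (chartAt E x₀ x) := by
  rw [FiberBundle.trivializationAt_continuousAlternatingMap_apply]
  ext v
  have h1 : (chartAt E x₀).symm (chartAt E x₀ x) = x := (chartAt E x₀).left_inv hx
  have h2 : ∀ (x' : X) (_ : x' = x) (u : Fin k → E), α x' u = α x u := by
    intro x' h u; subst h; rfl
  simp only [ContinuousAlternatingMap.inCoordinates, GS.loc, symmL_eq hx]
  simp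
  exact (h2 _ h1 _).symm

theorem trans_contDiffAt {e e' : OpenPartialHomeomorph X E} (he : e ∈ atlas E X)
    (he' : e' ∈ atlas E X) {y : E} (hy : y ∈ e.target) (hy' : e.symm y ∈ e'.source) :
    ContDiffAt ℝ ∞ (e' ∘ e.symm) y := by
  have h1 : ContMDiffAt 𝓘(ℝ, E) 𝓘(ℝ, E) ∞ e.symm y :=
    (contMDiffOn_symm_of_mem_maximalAtlas (IsManifold.subset_maximalAtlas he)).contMDiffAt
      (e.open_target.mem_nhds hy)
  have h2 : ContMDiffAt 𝓘(ℝ, E) 𝓘(ℝ, E) ∞ e' (e.symm y) :=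
    (contMDiffOn_of_mem_maximalAtlas (IsManifold.subset_maximalAtlas he')).contMDiffAt
      (e'.open_source.mem_nhds hy')
  exact (h2.comp y h1).contDiffAt

theorem mfderiv_symm_eq {e e' : OpenPartialHomeomorph X E} (he : e ∈ atlas E X)
    (he' : e' ∈ atlas E X) {y : E} (hy : y ∈ e.target) (hy' : e.symm y ∈ e'.source) (v : E) :
    (mfderiv 𝓘(ℝ, E) 𝓘(ℝ, E) e.symm y v : E) =
      mfderiv 𝓘(ℝ, E) 𝓘(ℝ, E) e'.symm (e' (e.symm y)) (fderiv ℝ (e' ∘ e.symm) y v) := by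
  have h0 : e.symm =ᶠ[𝓝 y] e'.symm ∘ (e' ∘ e.symm) := by
    have : ∀ᶠ z in 𝓝 y, e.symm z ∈ e'.source :=
      (e.continuousAt_symm hy).eventually (e'.open_source.mem_nhds hy')
    filter_upwards [this] with z hz
    exact (e'.left_inv hz).symm
  have h1 : MDifferentiableAt 𝓘(ℝ, E) 𝓘(ℝ, E) e'.symm (e' (e.symm y)) :=
    ((contMDiffOn_symm_of_mem_maximalAtlas (n := ∞)
      (IsManifold.subset_maximalAtlas he')).contMDiffAt
      (e'.open_target.mem_nhds (e'.map_source hy'))).mdifferentiableAt (by simp)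
  have h2 : MDifferentiableAt 𝓘(ℝ, E) 𝓘(ℝ, E) (e' ∘ e.symm) y :=
    ((trans_contDiffAt he he' hy hy').differentiableAt (by simp)).mdifferentiableAt
  rw [h0.mfderiv_eq, mfderiv_comp y h1 h2, mfderiv_eq_fderiv]
  rfl

theorem loc_trans (α : GS.Form E X k) {e e' : OpenPartialHomeomorph X E} (he : e ∈ atlas E X)
    (he' : e' ∈ atlas E X) {y : E} (hy : y ∈ e.target) (hy' : e.symm y ∈ e'.source) :
    GS.loc e α y = (GS.loc e' α ((e' ∘ e.symm) y)).compContinuousLinearMap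
      (fderiv ℝ (e' ∘ e.symm) y) := by
  ext v
  have h1 : e'.symm (e' (e.symm y)) = e.symm y := e'.left_inv hy'
  have h2 : ∀ (x' x : X) (_ : x' = x) (u : Fin k → E), α x' u = α x u := by
    intro x' x h u; subst h; rfl
  change α (e.symm y) (fun i => mfderiv 𝓘(ℝ, E) 𝓘(ℝ, E) e.symm y (v i)) =
    α (e'.symm (e' (e.symm y))) (fun i => mfderiv 𝓘(ℝ, E) 𝓘(ℝ, E) e'.symm (e' (e.symm y))
      (fderiv ℝ (e' ∘ e.symm) y (v i)))
  refine Eq.trans ?_ (h2 _ _ h1 _).symm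
  exact congrArg (α (e.symm y)) (funext fun i => mfderiv_symm_eq he he' hy hy' (v i))

theorem loc_trans_ev (α : GS.Form E X k) {e e' : OpenPartialHomeomorph X E} (he : e ∈ atlas E X)
    (he' : e' ∈ atlas E X) {y : E} (hy : y ∈ e.target) (hy' : e.symm y ∈ e'.source) :
    GS.loc e α =ᶠ[𝓝 y] fun z => (GS.loc e' α ((e' ∘ e.symm) z)).compContinuousLinearMap
      (fderiv ℝ (e' ∘ e.symm) z) := by
  have : ∀ᶠ z in 𝓝 y, e.symm z ∈ e'.source :=
    (e.continuousAt_symm hy).eventually (e'.open_source.mem_nhds hy')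
  filter_upwards [this, e.open_target.mem_nhds hy] with z hz hz'
  exact loc_trans α he he' hz' hz

theorem contDiffAt_loc_chartAt (α : Form E X k) (x₀ : X) :
    ContDiffAt ℝ ∞ (GS.loc (chartAt E x₀) (fun x => α x)) (chartAt E x₀ x₀) := by
  have h1 := (Bundle.contMDiffAt_section x₀).1 (α.contMDiff x₀)
  have hs := mem_chart_source E x₀
  have ht := mem_chart_target E x₀
  have h2 : ContMDiffAt 𝓘(ℝ, E) 𝓘(ℝ, E) ∞ (chartAt E x₀).symm (chartAt E x₀ x₀) :=
    (contMDiffOn_chart_symm (n := ∞)).contMDiffAt ((chartAt E x₀).open_target.mem_nhds ht)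
  have h3 := (ContMDiffAt.comp_of_eq h1 h2 ((chartAt E x₀).left_inv hs)).contDiffAt
  refine h3.congr_of_eventuallyEq ?_
  filter_upwards [(chartAt E x₀).open_target.mem_nhds ht] with z hz
  have := triv_eq (fun x => α x) ((chartAt E x₀).map_target hz)
  rw [(chartAt E x₀).right_inv hz] at this
  exact this.symm

theorem smooth_coe [FiniteDimensional ℝ E] (α : Form E X k) : GS.Smooth fun x => α x := by
  intro e he y hy
  refine ContDiffAt.contDiffWithinAt ?_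
  have hs := mem_chart_source E (e.symm y)
  have hc := chart_mem_atlas E (e.symm y)
  have ht := trans_contDiffAt he hc hy hs
  refine ContDiffAt.congr_of_eventuallyEq ?_ (loc_trans_ev _ he hc hy hs)
  have h1 := ContDiffAt.comp (g := GS.loc (chartAt E (e.symm y)) fun x => α x)
    (f := chartAt E (e.symm y) ∘ e.symm) y (contDiffAt_loc_chartAt α (e.symm y)) ht
  exact contDiffAt_alt_comp h1 (ht.fderiv_right (m := ∞) (by simp))

theorem contMDiff_family (α : ℝ → GS.Form E X k)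
    (h : ∀ e ∈ atlas E X,
      ContDiffOn ℝ ∞ (fun p : ℝ × E => GS.loc e (α p.1) p.2) (univ ×ˢ e.target)) :
    ContMDiff (𝓘(ℝ, ℝ).prod 𝓘(ℝ, E)) (𝓘(ℝ, E).prod 𝓘(ℝ, E [⋀^Fin k]→L[ℝ] ℝ)) ∞
      fun p : ℝ × X =>
        (⟨p.2, α p.1 p.2⟩ : Bundle.TotalSpace (E [⋀^Fin k]→L[ℝ] ℝ) (Alt E X k)) := by
  intro p
  rw [Bundle.contMDiffAt_totalSpace]
  refine ⟨contMDiffAt_snd, ?_⟩
  have hs := mem_chart_source E p.2
  have ht := mem_chart_target E p.2
  have h1 : ContDiffAt ℝ ∞ (fun q : ℝ × E => GS.loc (chartAt E p.2) (α q.1) q.2)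
      (p.1, chartAt E p.2 p.2) :=
    (h _ (chart_mem_atlas E p.2)).contDiffAt
      ((isOpen_univ.prod (chartAt E p.2).open_target).mem_nhds ⟨trivial, ht⟩)
  have h2 : ContMDiffAt 𝓘(ℝ, E) 𝓘(ℝ, E) ∞ (chartAt E p.2) p.2 :=
    (contMDiffOn_chart (n := ∞)).contMDiffAt ((chartAt E p.2).open_source.mem_nhds hs)
  have h3 : ContMDiffAt (𝓘(ℝ, ℝ).prod 𝓘(ℝ, E)) 𝓘(ℝ, ℝ × E) ∞
      (fun q : ℝ × X => (q.1, chartAt E p.2 q.2)) p :=
    contMDiffAt_fst.prodMk_space (h2.comp p contMDiffAt_snd)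
  have h4 := h1.comp_contMDiffAt (f := fun q : ℝ × X => (q.1, chartAt E p.2 q.2)) h3
  refine h4.congr_of_eventuallyEq ?_
  have : ∀ᶠ q : ℝ × X in 𝓝 p, q.2 ∈ (chartAt E p.2).source :=
    continuous_snd.continuousAt.eventually ((chartAt E p.2).open_source.mem_nhds hs)
  filter_upwards [this] with q hq
  exact triv_eq (α q.1) hq

theorem contMDiff_of_smooth {α : GS.Form E X k} (h : GS.Smooth α) :
    ContMDiff 𝓘(ℝ, E) (𝓘(ℝ, E).prod 𝓘(ℝ, E [⋀^Fin k]→L[ℝ] ℝ)) ∞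
      fun x : X => (⟨x, α x⟩ : Bundle.TotalSpace (E [⋀^Fin k]→L[ℝ] ℝ) (Alt E X k)) := by
  have h1 := contMDiff_family (fun _ => α) fun e he =>
    (h e he).comp contDiffOn_snd fun p hp => hp.2
  exact h1.comp (f := fun x : X => ((0 : ℝ), x)) (contMDiff_const.prodMk contMDiff_id)

/-- The section given by a form which is smooth in the charts. -/
def ofSmooth (α : GS.Form E X k) (h : GS.Smooth α) : Form E X k := ⟨α, contMDiff_of_smooth h⟩

end Vale.Agent.P247U
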