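import Vale.Agent.P247I47.Dd
import Vale.Agent.P247I47.Ms
import Vale.Agent.P247X.Stm

/-! # Translation between the coordinate-free notions and the notions read in charts -/

open scoped Manifold ContDiff Bundle Topology
open Set MeasureTheory
open Vale.Agent.P247.SCY Vale.Agent.P247X

namespace Vale.Agent.P247U

theorem two_expand (a : R4 [⋀^Fin 2]→L[ℝ] ℝ) (u v : R4) :
    a ![u, v] = ∑ j, ∑ k, u j * v k * a ![GS.bas j, GS.bas k] := by
  have hu : ∀ u : R4, u = ∑ j, u j • GS.bas j := by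
    intro u
    rw [← sb_eq]
    exact (sb.sum_repr u).symm
  have h1 : ∀ (u : R4) (v : R4), a ![u, v] = ∑ j, u j * a ![GS.bas j, v] := by
    intro u v
    have h := map_sum (a.toContinuousMultilinearMap.toMultilinearMap.toLinearMap ![u, v] 0)
      (fun j => u j • GS.bas j) Finset.univ
    have h2 : ∀ p : R4, Function.update ![u, v] 0 p = ![p, v] := by
      intro p; funext i; fin_cases i <;> rfl
    rw [← hu u] at h
    simp only [map_smul, MultilinearMap.toLinearMap_apply, h2, smul_eq_mul] at h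
    exact h
  have h3 : ∀ (u : R4) (v : R4), a ![u, v] = ∑ j, v j * a ![u, GS.bas j] := by
    intro u v
    have h := map_sum (a.toContinuousMultilinearMap.toMultilinearMap.toLinearMap ![u, v] 1)
      (fun j => v j • GS.bas j) Finset.univ
    have h2 : ∀ p : R4, Function.update ![u, v] 1 p = ![u, p] := by
      intro p; funext i; fin_cases i <;> rfl
    rw [← hu v] at h
    simp only [map_smul, MultilinearMap.toLinearMap_apply, h2, smul_eq_mul] at h
    exact h
  rw [h1]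
  refine Finset.sum_congr rfl fun j _ => ?_
  rw [h3 _ v, Finset.mul_sum]
  exact Finset.sum_congr rfl fun k _ => (mul_assoc _ _ _).symm

theorem two_swap (a : R4 [⋀^Fin 2]→L[ℝ] ℝ) (u v : R4) : a ![u, v] = -a ![v, u] := by
  have h := a.toAlternatingMap.map_swap ![v, u] (i := 0) (j := 1) (by decide)
  have h2 : ![v, u] ∘ Equiv.swap (0 : Fin 2) 1 = ![u, v] := by
    funext i; fin_cases i <;> rfl
  rw [h2] at h
  exact h

theorem two_self (a : R4 [⋀^Fin 2]→L[ℝ] ℝ) (u : R4) : a ![u, u] = 0 := by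
  have := two_swap a u u
  linarith

theorem two_six (a : R4 [⋀^Fin 2]→L[ℝ] ℝ) (u v : R4) :
    a ![u, v] = (u 0 * v 1 - u 1 * v 0) * a ![GS.bas 0, GS.bas 1]
      + (u 0 * v 2 - u 2 * v 0) * a ![GS.bas 0, GS.bas 2]
      + (u 0 * v 3 - u 3 * v 0) * a ![GS.bas 0, GS.bas 3]
      + (u 1 * v 2 - u 2 * v 1) * a ![GS.bas 1, GS.bas 2]
      + (u 1 * v 3 - u 3 * v 1) * a ![GS.bas 1, GS.bas 3]
      + (u 2 * v 3 - u 3 * v 2) * a ![GS.bas 2, GS.bas 3] := by
  rw [two_expand]
  simp only [Fin.sum_univ_four, two_self]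
  rw [two_swap a (GS.bas 1) (GS.bas 0), two_swap a (GS.bas 2) (GS.bas 0),
    two_swap a (GS.bas 3) (GS.bas 0), two_swap a (GS.bas 2) (GS.bas 1),
    two_swap a (GS.bas 3) (GS.bas 1), two_swap a (GS.bas 3) (GS.bas 2)]
  ring

theorem det_sb (v : Fin 4 → R4) : sb.det v = Matrix.det (Matrix.of fun i j => v j i) := rfl

theorem wedge_det (a b : R4 [⋀^Fin 2]→L[ℝ] ℝ) (v : Fin 4 → R4) :
    GS.wedge a b v = sb.det v * GS.wedge a b GS.bas := by
  rw [det_sb, Matrix.det_succ_row_zero]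
  simp only [Fin.sum_univ_four, Matrix.det_fin_three, Matrix.submatrix_apply, Matrix.of_apply,
    GS.wedge]
  rw [two_six a (v 0) (v 1), two_six a (v 0) (v 2), two_six a (v 0) (v 3), two_six a (v 1) (v 2),
    two_six a (v 1) (v 3), two_six a (v 2) (v 3), two_six b (v 0) (v 1), two_six b (v 0) (v 2),
    two_six b (v 0) (v 3), two_six b (v 1) (v 2), two_six b (v 1) (v 3), two_six b (v 2) (v 3)]
  simp [Fin.succAbove]
  ring

variable {X : Type} [TopologicalSpace X] [ChartedSpace R4 X] [IsManifold 𝓘(ℝ, R4) ∞ X]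

theorem four_det (μ : Form R4 X 4) (x : X) (v : Fin 4 → R4) :
    μ x v = sb.det v * μ x (GS.tbas GS.bas x) := by
  have := alt_comp_basis sb (μ x) v
  rw [sb_eq] at this
  exact this

theorem bas_ne_zero {μ : Form R4 X 4} {x : X} (h : μ x ≠ 0) : μ x (GS.tbas GS.bas x) ≠ 0 := by
  intro h0
  apply h
  ext v
  refine (four_det μ x v).trans ?_
  rw [h0, mul_zero]
  rfl

theorem wedgeEq_Qm {μ : Form R4 X 4} (hμ : ∀ x, μ x ≠ 0) (w : Fin 3 → Form R4 X 2) :
    WedgeEq μ w (GS.Qm GS.bas (fun x => μ x) fun i x => w i x) := by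
  intro i j x v
  have h1 : wedge (w i) (w j) x v = sb.det v * GS.wedge (w i x) (w j x) (GS.tbas GS.bas x) :=
    wedge_det (w i x) (w j x) v
  have h2 := bas_ne_zero (hμ x)
  rw [h1, val, four_det μ x v]
  simp only [GS.Qm, GS.quot, Matrix.of_apply]
  field_simp

theorem eq_Qm {μ : Form R4 X 4} (hμ : ∀ x, μ x ≠ 0) {w : Fin 3 → Form R4 X 2}
    {Q : X → Matrix (Fin 3) (Fin 3) ℝ} (h : WedgeEq μ w Q) :
    Q = GS.Qm GS.bas (fun x => μ x) fun i x => w i x := by
  funext x
  ext i j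
  have h1 := (h i j x (GS.tbas GS.bas x)).symm.trans (wedgeEq_Qm hμ w i j x (GS.tbas GS.bas x))
  have h2 := mul_right_cancel₀ (bas_ne_zero (hμ x)) h1
  linarith

theorem ne_zero_of_isVolumeForm {μ : Form R4 X 4} (h : IsVolumeForm μ) (x : X) : μ x ≠ 0 := by
  obtain ⟨v, hv⟩ := h x
  intro h0
  apply hv
  rw [val, h0]
  rfl

variable [T2Space X] [CompactSpace X]

theorem hyper_iff {μ : Form R4 X 4} (hμ : ∀ x, μ x ≠ 0) (w : Fin 3 → Form R4 X 2) :
    Hypersymplectic μ w ↔ GS.Hypersymplectic GS.bas (fun x => μ x) fun i x => w i x := by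
  constructor
  · rintro ⟨h1, Q, h2, h3⟩
    refine ⟨fun i => smooth_coe (w i), fun i => closed_of_isClosedForm (h1 i), ?_⟩
    rw [← eq_Qm hμ h2]
    exact h3
  · intro h
    exact ⟨fun i => isClosedForm_of_closed (h.closed i), _, wedgeEq_Qm hμ w, h.posDef⟩

omit [T2Space X] [CompactSpace X] in
theorem hyperkahler_of {μ : Form R4 X 4} (hμ : ∀ x, μ x ≠ 0) {w : Fin 3 → Form R4 X 2}
    (h : St.Hyperkahler GS.bas (fun x => μ x) fun i x => w i x) : Hyperkahler μ w := by
  obtain ⟨h1, ν, hν, h2, h3⟩ := h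
  refine ⟨fun i => isClosedForm_of_closed (h1 i).2, ofSmooth ν hν.smooth, fun x => ⟨_, h2 x, ?_⟩,
    ?_⟩
  · intro v
    have h4 := bas_ne_zero (hμ x)
    rw [val, val, four_det μ x v, four_det (ofSmooth ν hν.smooth) x v]
    change sb.det v * ν x (GS.tbas GS.bas x) = _
    field_simp
  · have h4 := wedgeEq_Qm (μ := ofSmooth ν hν.smooth) hν.ne_zero w
    have h5 : (GS.Qm GS.bas (fun x => ofSmooth ν hν.smooth x) fun i x => w i x) = fun _ => 1 :=
      funext h3
    rwa [h5] at h4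

omit [T2Space X] in
theorem normalized_of [Nonempty X] [MeasurableSpace X] [BorelSpace X] {μ : Form R4 X 4}
    (hμ : ∀ x, μ x ≠ 0) {m : Measure X} (hm : IsMeasureOf std μ m) {w : Fin 3 → Form R4 X 2}
    (h : Normalized μ m w) : GS.Normalized GS.bas (fun x => μ x) fun i x => w i x := by
  obtain ⟨Q, h1, h2⟩ := h
  intro i j
  rw [← h2 i j, GS.pair, vol_eq_of_isMeasureOf hm, eq_Qm hμ h1]
  congr 1
  funext x
  simp only [GS.Qm, Matrix.of_apply]
  ring

theorem deformation_of {μ : Form R4 X 4} (hμ : ∀ x, μ x ≠ 0) {w : Fin 3 → Form R4 X 2}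
    {W : ℝ → Fin 3 → GS.Form R4 X 2}
    (h : GS.Deformation GS.bas (fun x => μ x) (fun i x => w i x) W) :
    ∃ W' : ℝ → Fin 3 → Form R4 X 2, Deformation μ w W' ∧ ∀ t, (fun i x => W' t i x) = W t := by
  have hs : ∀ t i, GS.Smooth (W t i) := fun t i e he =>
    (h.smooth i e he).comp (f := fun y : R4 => (t, y)) (contDiffOn_const.prodMk contDiffOn_id)
      fun y hy => ⟨trivial, hy⟩
  have h0 : ∀ i x, W 0 i x = w i x := fun i x => congrFun (congrFun h.start i) x
  refine ⟨fun t i => ofSmooth (W t i) (hs t i), ⟨fun i => ?_, ?_, fun t ht => ⟨?_, fun i => ?_⟩⟩,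
    fun _ => rfl⟩
  · exact contMDiff_family (fun t => W t i) (h.smooth i)
  · funext i
    exact ContMDiffSection.ext (h0 i)
  · exact (hyper_iff hμ _).2 (h.hyper t ht)
  · exact cohomologous_of_exact (h.exact t i)

end Vale.Agent.P247U
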